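import Vale.Agent.P084.Area
import Vale.Agent.P084.TB
import Vale.Agent.P084.TJ
import Vale.Agent.P084.TL
import Vale.Agent.P084.H1Odd

/-! Assembly of the finite-dimensional case. -/

namespace Vale.Agent.P084.A5

open MeasureTheory Metric
open scoped RealInnerProductSpace

variable {X Y : Type*} [NormedAddCommGroup X] [NormedSpace ℝ X] [NormedAddCommGroup Y] [NormedSpace ℝ Y]

theorem hs1 {n : ℕ} (φ : EuclideanSpace ℝ (Fin n) →L[ℝ] ℝ) (h : ‖φ‖ ≤ 1) :
    ∑ j, φ (EuclideanSpace.single j 1) ^ 2 ≤ 1 := by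
  let u : EuclideanSpace ℝ (Fin n) := WithLp.toLp 2 fun j => φ (EuclideanSpace.single j 1)
  have e1 : ‖u‖ ^ 2 = ∑ j, φ (EuclideanSpace.single j 1) ^ 2 := by
    rw [EuclideanSpace.norm_sq_eq]
    simp [u]
  have e2 : u = ∑ j, φ (EuclideanSpace.single j 1) • EuclideanSpace.single j (1 : ℝ) := by
    ext k
    simp [u, Pi.single_apply]
  have e3 : φ u = ∑ j, φ (EuclideanSpace.single j 1) ^ 2 := by
    conv_lhs => rw [e2]
    simp [map_sum, sq]
  have e4 : φ u ≤ ‖u‖ := (le_abs_self _).trans ((φ.le_opNorm u).trans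
    (mul_le_of_le_one_left (norm_nonneg _) h))
  nlinarith [norm_nonneg u]

theorem contr {n m : ℕ} {c : Fin m → ℝ} {p : Fin m → EuclideanSpace ℝ (Fin n)} (c0 : ∀ i, 0 ≤ c i)
    (hp : ∀ v, ∑ i, (c i * ⟪p i, v⟫) • p i = v) (a : Fin m → ℝ) :
    ‖∑ i, (c i * a i) • p i‖ ^ 2 ≤ ∑ i, c i * a i ^ 2 := by
  set w := ∑ i, (c i * a i) • p i with hw
  have e1 : ‖w‖ ^ 2 = ∑ i, c i * a i * ⟪p i, w⟫ := by
    rw [← real_inner_self_eq_norm_sq]
    conv_lhs => rw [hw, sum_inner]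
    simp only [real_inner_smul_left, ← hw]
  have e2 : ‖w‖ ^ 2 = ∑ i, c i * ⟪p i, w⟫ * ⟪p i, w⟫ := by
    rw [← real_inner_self_eq_norm_sq]
    conv_lhs => enter [2]; rw [← hp w]
    rw [sum_inner]
    simp only [real_inner_smul_left]
  have e3 : ∑ i, 2 * (c i * a i * ⟪p i, w⟫) ≤ ∑ i, (c i * a i ^ 2 + c i * ⟪p i, w⟫ * ⟪p i, w⟫) :=
    Finset.sum_le_sum fun i _ => by nlinarith [mul_nonneg (c0 i) (sq_nonneg (a i - ⟪p i, w⟫))]
  rw [← Finset.mul_sum, Finset.sum_add_distrib] at e3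
  linarith

/-- John position. -/
def Jn {n : ℕ} (L : X ≃L[ℝ] EuclideanSpace ℝ (Fin n)) : Prop :=
  ∃ (m : ℕ) (c : Fin m → ℝ) (p : Fin m → EuclideanSpace ℝ (Fin n)), (∀ i, 0 ≤ c i) ∧ ∑ i, c i ≤ n ∧
    (∀ i x, ⟪p i, L x⟫ ≤ ‖x‖) ∧ (∀ x, ‖x‖ ≤ ‖L x‖) ∧ ∀ v, ∑ i, (c i * ⟪p i, v⟫) • p i = v

theorem ext {k n : ℕ} {L : X ≃L[ℝ] EuclideanSpace ℝ (Fin k)} {L' : Y ≃L[ℝ] EuclideanSpace ℝ (Fin n)}
    (hL : Jn L) (hL' : Jn L') {f : X → Y}
    (hf : ∀ x x', ‖x‖ = 1 → ‖x'‖ = 1 → ‖f x - f x'‖ = ‖x - x'‖) :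
    ∃ (G : EuclideanSpace ℝ (Fin k) → EuclideanSpace ℝ (Fin n)) (C : NNReal), LipschitzWith C G ∧
      (∀ x, ‖x‖ = 1 → G (L x) = L' (f x)) ∧
      ∀ᵐ x, DifferentiableAt ℝ G x → ∑ j, ‖fderiv ℝ G x (EuclideanSpace.single j 1)‖ ^ 2 ≤ n := by
  obtain ⟨-, -, -, -, -, -, hl, -⟩ := hL
  obtain ⟨m, c, p, c0, c1, p1, -, p2⟩ := hL'
  have : ∀ i, ∃ F : EuclideanSpace ℝ (Fin k) → ℝ, LipschitzWith 1 F ∧
      Set.EqOn (fun v => ⟪p i, L' (f (L.symm v))⟫) F {v | ‖L.symm v‖ = 1} := fun i => by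
    refine LipschitzOnWith.extend_real (LipschitzOnWith.of_le_add_mul 1 fun a ha b hb => ?_)
    have k1 := p1 i (f (L.symm a) - f (L.symm b))
    rw [hf _ _ ha hb, map_sub, inner_sub_right, ← map_sub] at k1
    have k2 := hl (L.symm (a - b))
    rw [L.apply_symm_apply] at k2
    rw [dist_eq_norm]
    simp only [NNReal.coe_one, one_mul]
    linarith
  choose F F1 F2 using this
  refine ⟨fun v => ∑ i, (c i * F i v) • p i, ∑ i, ‖c i‖₊ * ‖p i‖₊, LipschitzWith.of_dist_le_mul fun a b => ?_,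
    fun x hx => ?_, ?_⟩
  · rw [dist_eq_norm, ← Finset.sum_sub_distrib]
    refine (norm_sum_le _ _).trans ?_
    push_cast
    rw [Finset.sum_mul]
    refine Finset.sum_le_sum fun i _ => ?_
    have := (F1 i).dist_le_mul a b
    rw [NNReal.coe_one, one_mul, dist_eq_norm] at this
    rw [← sub_smul, ← mul_sub, norm_smul, norm_mul, mul_right_comm]
    exact mul_le_mul_of_nonneg_left this (by positivity)
  · rw [← p2 (L' (f x))]
    refine Finset.sum_congr rfl fun i _ => ?_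
    rw [← F2 i (show L x ∈ {v | ‖L.symm v‖ = 1} by simpa using hx)]
    simp
  · filter_upwards [ae_all_iff.2 fun i => (F1 i).ae_differentiableAt (μ := volume)] with x hx _
    have d : HasFDerivAt (fun v => ∑ i, (c i * F i v) • p i)
        (∑ i, (c i • fderiv ℝ (F i) x).smulRight (p i)) x :=
      HasFDerivAt.fun_sum fun i _ => ((hx i).hasFDerivAt.const_mul (c i)).smul_const (p i)
    rw [d.fderiv]
    simp only [ContinuousLinearMap.sum_apply, ContinuousLinearMap.smulRight_apply,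
      ContinuousLinearMap.smul_apply, smul_eq_mul]
    refine (Finset.sum_le_sum fun j _ => contr c0 p2 _).trans ?_
    rw [Finset.sum_comm]
    refine le_trans (Finset.sum_le_sum fun i _ => ?_) c1
    rw [← Finset.mul_sum]
    exact mul_le_of_le_one_right (c0 i) (hs1 _ (by simpa using norm_fderiv_le_of_lipschitz ℝ (F1 i)))

theorem cov [FiniteDimensional ℝ X] [FiniteDimensional ℝ Y] {k n : ℕ}
    {L : X ≃L[ℝ] EuclideanSpace ℝ (Fin k)} {L' : Y ≃L[ℝ] EuclideanSpace ℝ (Fin n)} {f : X → Y} {g : Y → X}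
    (hg : ∀ y, ‖y‖ = 1 → ‖g y‖ = 1 ∧ f (g y) = y)
    {G : EuclideanSpace ℝ (Fin k) → EuclideanSpace ℝ (Fin n)}
    {G' : EuclideanSpace ℝ (Fin n) → EuclideanSpace ℝ (Fin k)} (c : Continuous G) (c' : Continuous G')
    (e : ∀ x, ‖x‖ = 1 → G (L x) = L' (f x)) (e' : ∀ y, ‖y‖ = 1 → G' (L' y) = L (g y)) :
    closedBall (0 : Y) 1 ⊆ (fun x => L'.symm (G (L x))) '' closedBall 0 1 :=
  cover (G' := fun y => L.symm (G' (L' y))) (by fun_prop) (by fun_prop) fun y hy => by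
    simp only [e' y hy, L.symm_apply_apply, e _ (hg y hy).1, (hg y hy).1, (hg y hy).2,
      L'.symm_apply_apply, and_self]

theorem sub {n : ℕ} {L : X ≃L[ℝ] EuclideanSpace ℝ (Fin n)} {L' : Y ≃L[ℝ] EuclideanSpace ℝ (Fin n)}
    {G : EuclideanSpace ℝ (Fin n) → EuclideanSpace ℝ (Fin n)}
    (h : closedBall (0 : Y) 1 ⊆ (fun x => L'.symm (G (L x))) '' closedBall 0 1) :
    L' '' closedBall 0 1 ⊆ G '' (L '' closedBall 0 1) := by
  rintro _ ⟨y, hy, rfl⟩
  obtain ⟨x, hx, rfl⟩ := h hy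
  exact ⟨_, ⟨x, hx, rfl⟩, by simp⟩

theorem half [FiniteDimensional ℝ X] {n : ℕ} {L : X ≃L[ℝ] EuclideanSpace ℝ (Fin n)}
    {G : EuclideanSpace ℝ (Fin n) → EuclideanSpace ℝ (Fin n)} {C : NNReal} (hG : LipschitzWith C G)
    (hd : ∀ᵐ x, DifferentiableAt ℝ G x → ∑ j, ‖fderiv ℝ G x (EuclideanSpace.single j 1)‖ ^ 2 ≤ n)
    (h : volume (L '' closedBall 0 1) ≤ volume (G '' (L '' closedBall 0 1))) {x x' : X} (hx : ‖x‖ = 1)
    (hx' : ‖x'‖ = 1) : ‖G (L x) - G (L x')‖ ≤ ‖L x - L x'‖ := by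
  have kc : IsCompact (L '' closedBall 0 1) := (isCompact_closedBall 0 1).image L.continuous
  have k := lip_one (U := L '' ball 0 1) hG (L.toHomeomorph.isOpenMap _ isOpen_ball)
    ((convex_ball (0 : X) 1).linear_image L.toLinearEquiv.toLinearMap) (by
      filter_upwards [area_eq hG kc.measurableSet hd kc.measure_lt_top.ne h] with v hv hv'
      exact hv (Set.image_mono ball_subset_closedBall hv'))
  have cG := hG.continuous
  have t : ∀ φ : ℝ → ℝ, Continuous φ → Filter.Tendsto φ (nhdsWithin 1 (Set.Iio 1)) (nhds (φ 1)) :=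
    fun φ h => h.continuousAt.tendsto.mono_left nhdsWithin_le_nhds
  have := le_of_tendsto_of_tendsto (t (fun s => ‖G (L (s • x)) - G (L (s • x'))‖) (by fun_prop))
    (t (fun s => ‖L (s • x) - L (s • x')‖) (by fun_prop)) (by
      filter_upwards [Ioo_mem_nhdsLT (show (0 : ℝ) < 1 from one_pos)] with s hs
      have m : ∀ z : X, ‖z‖ = 1 → s • z ∈ ball (0 : X) 1 := fun z hz => by
        rw [mem_ball_zero_iff, norm_smul, hz, mul_one, Real.norm_of_nonneg hs.1.le]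
        exact hs.2
      exact k _ ⟨_, m x' hx', rfl⟩ _ ⟨_, m x hx, rfl⟩)
  simpa only [one_smul] using this

theorem main [FiniteDimensional ℝ X] [FiniteDimensional ℝ Y] {f : X → Y} {g : Y → X}
    (hf : ∀ x x', ‖x‖ = 1 → ‖x'‖ = 1 → ‖f x - f x'‖ = ‖x - x'‖)
    (hg : ∀ x x', ‖x‖ = 1 → ‖x'‖ = 1 → ‖g x - g x'‖ = ‖x - x'‖)
    (h1 : ∀ y, ‖y‖ = 1 → ‖g y‖ = 1 ∧ f (g y) = y) (h2 : ∀ x, ‖x‖ = 1 → ‖f x‖ = 1 ∧ g (f x) = x)
    (ho : ∀ x, ‖x‖ = 1 → f (-x) = -f x) : ∃ T : X ≃ₗᵢ[ℝ] Y, ∀ x, ‖x‖ = 1 → T x = f x := by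
  obtain ⟨L, hL⟩ : ∃ L : X ≃L[ℝ] EuclideanSpace ℝ (Fin (Module.finrank ℝ X)), Jn L := john rfl
  have dim : Module.finrank ℝ Y = Module.finrank ℝ X := by
    obtain ⟨L', hL'⟩ : ∃ L : Y ≃L[ℝ] EuclideanSpace ℝ (Fin (Module.finrank ℝ Y)), Jn L := john rfl
    obtain ⟨G, C, a1, a2, -⟩ := ext hL hL' hf
    obtain ⟨G', C', b1, b2, -⟩ := ext hL' hL hg
    exact le_antisymm
      (dim_le (L'.symm.lipschitz.comp (a1.comp L.lipschitz)) (cov h1 a1.continuous b1.continuous a2 b2))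
      (dim_le (L.symm.lipschitz.comp (b1.comp L'.lipschitz)) (cov h2 b1.continuous a1.continuous b2 a2))
  obtain ⟨L', hL'⟩ : ∃ L : Y ≃L[ℝ] EuclideanSpace ℝ (Fin (Module.finrank ℝ X)), Jn L := john dim
  obtain ⟨G, C, a1, a2, a3⟩ := ext hL hL' hf
  obtain ⟨G', C', b1, b2, b3⟩ := ext hL' hL hg
  have s1 := measure_mono (μ := volume) (sub (cov h1 a1.continuous b1.continuous a2 b2))
  have s2 := measure_mono (μ := volume) (sub (cov h2 b1.continuous a1.continuous b2 a2))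
  have t1 := area_le a1 ((isCompact_closedBall (0 : X) 1).image L.continuous).measurableSet a3
  have t2 := area_le b1 ((isCompact_closedBall (0 : Y) 1).image L'.continuous).measurableSet b3
  have d : ∀ x x', ‖x‖ = 1 → ‖x'‖ = 1 → ‖L' (f x) - L' (f x')‖ = ‖L x - L x'‖ := fun x x' hx hx' => by
    have k1 := half a1 a3 (s2.trans (t2.trans s1)) hx hx'
    have k2 := half b1 b3 (s1.trans (t1.trans s2)) (h2 x hx).1 (h2 x' hx').1
    rw [a2 x hx, a2 x' hx'] at k1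
    rw [b2 _ (h2 x hx).1, b2 _ (h2 x' hx').1, (h2 x hx).2, (h2 x' hx').2] at k2
    exact le_antisymm k1 k2
  have ip0 : ∀ x x', ‖x‖ = 1 → ‖x'‖ = 1 → ⟪L' (f x), L' (f x')⟫ = ⟪L x, L x'⟫ := fun x x' hx hx' => by
    have k := d x (-x') hx (by rwa [norm_neg])
    rw [ho x' hx', map_neg, map_neg, sub_neg_eq_add, sub_neg_eq_add] at k
    have k1 := norm_add_sq_real (L' (f x)) (L' (f x'))
    have k2 := norm_sub_sq_real (L' (f x)) (L' (f x'))
    have k3 := norm_add_sq_real (L x) (L x')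
    have k4 := norm_sub_sq_real (L x) (L x')
    rw [k] at k1
    rw [d x x' hx hx'] at k2
    linarith
  have un : ∀ x : X, x ≠ 0 → ‖‖x‖⁻¹ • x‖ = 1 := fun x hx => by
    rw [norm_smul, norm_inv, norm_norm, inv_mul_cancel₀ (norm_ne_zero_iff.2 hx)]
  let F : X → Y := fun x => ‖x‖ • f (‖x‖⁻¹ • x)
  have ip : ∀ x x', ⟪L' (F x), L' (F x')⟫ = ⟪L x, L x'⟫ := fun x x' => by
    by_cases hx : x = 0
    · simp [F, hx]
    by_cases hx' : x' = 0
    · simp [F, hx']
    have n1 := norm_ne_zero_iff.2 hx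
    have n2 := norm_ne_zero_iff.2 hx'
    have k := ip0 _ _ (un x hx) (un x' hx')
    simp only [F]
    rw [map_smul, map_smul, real_inner_smul_left, real_inner_smul_right, k, map_smul, map_smul,
      real_inner_smul_left, real_inner_smul_right]
    field_simp
  have nF : ∀ x, ‖F x‖ = ‖x‖ := fun x => by
    by_cases hx : x = 0
    · simp [F, hx]
    simp only [F]
    rw [norm_smul, norm_norm, (h2 _ (un x hx)).1, mul_one]
  let T : X →ₗ[ℝ] Y :=
    { toFun := F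
      map_add' := fun x x' => by
        have : ⟪L' (F (x + x')) - L' (F x) - L' (F x'), L' (F (x + x')) - L' (F x) - L' (F x')⟫ = 0 := by
          simp only [inner_sub_left, inner_sub_right, ip, map_add, inner_add_left, inner_add_right]
          ring
        rw [inner_self_eq_zero, sub_sub, ← map_add, sub_eq_zero] at this
        exact L'.injective this
      map_smul' := fun r x => by
        have : ⟪L' (F (r • x)) - r • L' (F x), L' (F (r • x)) - r • L' (F x)⟫ = 0 := by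
          simp only [inner_sub_left, inner_sub_right, real_inner_smul_left, real_inner_smul_right, ip,
            map_smul]
          ring
        rw [inner_self_eq_zero, ← map_smul, sub_eq_zero] at this
        exact L'.injective this }
  let T' : X →ₗᵢ[ℝ] Y := ⟨T, nF⟩
  refine ⟨T'.toLinearIsometryEquiv dim.symm, fun x hx => ?_⟩
  show ‖x‖ • f (‖x‖⁻¹ • x) = f x
  simp [hx]

theorem fin [FiniteDimensional ℝ X] (f : sphere (0 : X) 1 → sphere (0 : Y) 1) (hf : Isometry f)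
    (hs : Function.Surjective f) : FiniteDimensional ℝ Y := by
  have k : IsCompact (sphere (0 : Y) 1) := by
    have := isCompact_range (continuous_subtype_val.comp hf.continuous)
    rwa [Set.range_comp, hs.range_eq, Set.image_univ, Subtype.range_coe] at this
  refine FiniteDimensional.of_isCompact_closedBall₀ ℝ one_pos (IsCompact.of_isClosed_subset
    ((((isCompact_Icc (a := (0 : ℝ)) (b := 1)).prod k).image continuous_smul).insert 0) isClosed_closedBall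
    fun y hy => ?_)
  by_cases h : y = 0
  · exact Or.inl h
  refine Or.inr ⟨(‖y‖, ‖y‖⁻¹ • y), ⟨⟨norm_nonneg _, mem_closedBall_zero_iff.1 hy⟩,
    mem_sphere_zero_iff_norm.2 (norm_smul_inv_norm h)⟩, ?_⟩
  simp [smul_smul, norm_ne_zero_iff.2 h]

theorem final [FiniteDimensional ℝ X] (f : sphere (0 : X) 1 → sphere (0 : Y) 1) (hf : Isometry f)
    (hs : Function.Surjective f) : ∃ T : X ≃ₗᵢ[ℝ] Y, ∀ x : sphere (0 : X) 1, T x = f x := by
  classical
  haveI := fin f hf hs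
  let e : sphere (0 : X) 1 ≃ᵢ sphere (0 : Y) 1 := ⟨Equiv.ofBijective f ⟨hf.injective, hs⟩, hf⟩
  let F : X → Y := fun x => if h : x ∈ sphere (0 : X) 1 then e ⟨x, h⟩ else 0
  let G : Y → X := fun x => if h : x ∈ sphere (0 : Y) 1 then e.symm ⟨x, h⟩ else 0
  have eF : ∀ x : sphere (0 : X) 1, F x = e x := fun x => dif_pos x.2
  have eG : ∀ x : sphere (0 : Y) 1, G x = e.symm x := fun x => dif_pos x.2
  refine (main (f := F) (g := G) (fun x x' h h' => ?_) (fun x x' h h' => ?_) (fun x h => ?_)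
    (fun x h => ?_) fun x h => ?_).imp fun T hT x => (hT _ (norm_eq_of_mem_sphere x)).trans (eF x)
  · lift x to sphere (0 : X) 1 using mem_sphere_zero_iff_norm.2 h
    lift x' to sphere (0 : X) 1 using mem_sphere_zero_iff_norm.2 h'
    rw [eF, eF, ← dist_eq_norm, ← dist_eq_norm, ← Subtype.dist_eq, ← Subtype.dist_eq, e.dist_eq]
  · lift x to sphere (0 : Y) 1 using mem_sphere_zero_iff_norm.2 h
    lift x' to sphere (0 : Y) 1 using mem_sphere_zero_iff_norm.2 h'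
    rw [eG, eG, ← dist_eq_norm, ← dist_eq_norm, ← Subtype.dist_eq, ← Subtype.dist_eq, e.symm.dist_eq]
  · lift x to sphere (0 : Y) 1 using mem_sphere_zero_iff_norm.2 h
    rw [eG, eF, e.apply_symm_apply]
    exact ⟨norm_eq_of_mem_sphere _, rfl⟩
  · lift x to sphere (0 : X) 1 using mem_sphere_zero_iff_norm.2 h
    rw [eF, eG, e.symm_apply_apply]
    exact ⟨norm_eq_of_mem_sphere _, rfl⟩
  · lift x to sphere (0 : X) 1 using mem_sphere_zero_iff_norm.2 h
    rw [eF, ← coe_neg_sphere, eF]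
    exact congrArg Subtype.val (H1.odd f hf hs x)

end Vale.Agent.P084.A5
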