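import Vale.Agent.P084.TJ
import Vale.Agent.P084.TB
import Vale.Agent.P084.TL
import Vale.Agent.P084.Area
import Vale.Agent.P084.H1Odd

namespace Vale.Agent.P084.A9

open Metric MeasureTheory Finset
open scoped RealInnerProductSpace

variable {X Y : Type*} [NormedAddCommGroup X] [NormedSpace ℝ X] [NormedAddCommGroup Y] [NormedSpace ℝ Y] {n m : ℕ}

theorem ext9 (f : sphere (0 : X) 1 → sphere (0 : Y) 1) (hf : Isometry f) (L : Y ≃L[ℝ] EuclideanSpace ℝ (Fin n))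
    (c : Fin m → ℝ) (p : Fin m → EuclideanSpace ℝ (Fin n)) (h3 : ∀ i y, ⟪p i, L y⟫ ≤ ‖y‖)
    (h5 : ∀ v, ∑ i, (c i * ⟪p i, v⟫) • p i = v) : ∃ (F : Fin m → X → ℝ) (G : X → Y) (C : NNReal),
      (∀ i, LipschitzWith 1 (F i)) ∧ LipschitzWith C G ∧ (∀ x, L (G x) = ∑ i, (c i * F i x) • p i) ∧
        ∀ x : sphere (0 : X) 1, G x = f x := by
  classical
  have k : ∀ i, ∃ g : X → ℝ, LipschitzWith 1 g ∧ ∀ x : sphere (0 : X) 1, g x = ⟪p i, L (f x)⟫ := fun i => by
    obtain ⟨g, g1, g2⟩ := (LipschitzOnWith.of_le_add_mul (s := sphere (0 : X) 1)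
      (f := fun x => if h : x ∈ sphere (0 : X) 1 then ⟪p i, L (f ⟨x, h⟩)⟫ else 0) 1 fun x hx y hy => by
        have a := h3 i ((f ⟨x, hx⟩ : Y) - f ⟨y, hy⟩)
        have b := hf.dist_eq ⟨x, hx⟩ ⟨y, hy⟩
        rw [Subtype.dist_eq, Subtype.dist_eq, dist_eq_norm] at b
        rw [map_sub, inner_sub_right, b] at a
        simp only [dif_pos hx, dif_pos hy, NNReal.coe_one, one_mul]
        linarith).extend_real
    exact ⟨g, g1, fun x => by rw [← g2 x.2]; simp only [dif_pos x.2]⟩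
  choose F F1 F2 using k
  let Λ : (Fin m → ℝ) →L[ℝ] EuclideanSpace ℝ (Fin n) :=
    ∑ i, (c i • ContinuousLinearMap.proj i : (Fin m → ℝ) →L[ℝ] ℝ).smulRight (p i)
  have hΛ : ∀ a, Λ a = ∑ i, (c i * a i) • p i := fun a => by simp [Λ]
  have lp : LipschitzWith 1 fun x i => F i x := LipschitzWith.of_dist_le_mul fun x y =>
    (dist_pi_le_iff (by positivity)).2 fun i => (F1 i).dist_le_mul x y
  refine ⟨F, fun x => L.symm (Λ fun i => F i x), _, F1,
    (L.symm : EuclideanSpace ℝ (Fin n) →L[ℝ] Y).lipschitz.comp (Λ.lipschitz.comp lp), fun x => by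
      rw [L.apply_symm_apply, hΛ], fun x => ?_⟩
  simp only [hΛ, F2, h5, L.symm_apply_apply]

theorem bess (D : EuclideanSpace ℝ (Fin n) →L[ℝ] ℝ) (h : ‖D‖ ≤ 1) :
    ∑ j, D (EuclideanSpace.single j 1) ^ 2 ≤ 1 := by
  set w := (InnerProductSpace.toDual ℝ (EuclideanSpace ℝ (Fin n))).symm D with hw
  have a : ‖w‖ ≤ 1 := by rwa [hw, LinearIsometryEquiv.norm_map]
  have b : ∀ j, D (EuclideanSpace.single j 1) = w j := fun j => by
    rw [← InnerProductSpace.toDual_symm_apply, ← hw, EuclideanSpace.inner_single_right]; simp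
  simp only [b]
  rw [← EuclideanSpace.real_norm_sq_eq]
  nlinarith [norm_nonneg w]

theorem contr {c : Fin m → ℝ} {p : Fin m → EuclideanSpace ℝ (Fin n)} (h1 : ∀ i, 0 ≤ c i)
    (h5 : ∀ v, ∑ i, (c i * ⟪p i, v⟫) • p i = v) (a : Fin m → ℝ) :
    ‖∑ i, (c i * a i) • p i‖ ^ 2 ≤ ∑ i, c i * a i ^ 2 := by
  set s := ∑ i, (c i * a i) • p i with hs
  have e1 : ‖s‖ ^ 2 = ∑ i, c i * a i * ⟪p i, s⟫ := by
    rw [← real_inner_self_eq_norm_sq]
    conv_lhs => enter [2]; rw [hs]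
    simp only [sum_inner, real_inner_smul_left]
  have e2 : ‖s‖ ^ 2 = ∑ i, c i * ⟪p i, s⟫ * ⟪p i, s⟫ := by
    rw [← real_inner_self_eq_norm_sq]
    conv_lhs => enter [2]; rw [← h5 s]
    simp only [sum_inner, real_inner_smul_left]
  have e3 : 2 * ∑ i, c i * a i * ⟪p i, s⟫ ≤ ∑ i, c i * a i ^ 2 + ∑ i, c i * ⟪p i, s⟫ * ⟪p i, s⟫ := by
    rw [mul_sum, ← sum_add_distrib]
    exact sum_le_sum fun i _ => by nlinarith [mul_nonneg (h1 i) (sq_nonneg (a i - ⟪p i, s⟫))]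
  linarith

theorem hsb {c : Fin m → ℝ} {p : Fin m → EuclideanSpace ℝ (Fin n)} (h1 : ∀ i, 0 ≤ c i) (h2 : ∑ i, c i ≤ n)
    (h5 : ∀ v, ∑ i, (c i * ⟪p i, v⟫) • p i = v) {φ : Fin m → EuclideanSpace ℝ (Fin n) → ℝ}
    (hφ : ∀ i, LipschitzWith 1 (φ i)) {H : EuclideanSpace ℝ (Fin n) → EuclideanSpace ℝ (Fin n)}
    (hH : ∀ v, H v = ∑ i, (c i * φ i v) • p i) : ∀ᵐ x, DifferentiableAt ℝ H x →
      ∑ j, ‖fderiv ℝ H x (EuclideanSpace.single j 1)‖ ^ 2 ≤ n := by
  filter_upwards [ae_all_iff.2 fun i => (hφ i).ae_differentiableAt (μ := volume)] with x hx _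
  have d : HasFDerivAt H (∑ i, (c i • fderiv ℝ (φ i) x).smulRight (p i)) x := by
    rw [show H = fun v => ∑ i, (c i * φ i v) • p i from funext hH]
    exact HasFDerivAt.fun_sum fun i _ => ((hx i).hasFDerivAt.const_mul (c i)).smul_const (p i)
  rw [d.fderiv]
  calc _ ≤ ∑ j, ∑ i, c i * fderiv ℝ (φ i) x (EuclideanSpace.single j 1) ^ 2 := sum_le_sum fun j _ => by
        have := contr h1 h5 fun i => fderiv ℝ (φ i) x (EuclideanSpace.single j 1)
        simpa using this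
    _ = ∑ i, c i * ∑ j, fderiv ℝ (φ i) x (EuclideanSpace.single j 1) ^ 2 := by
        rw [sum_comm]; simp only [mul_sum]
    _ ≤ ∑ i, c i := sum_le_sum fun i _ => mul_le_of_le_one_right (h1 i)
        (bess _ (by simpa using norm_fderiv_le_of_lipschitz ℝ (hφ i) (x₀ := x)))
    _ ≤ n := h2

theorem side {L : X ≃L[ℝ] EuclideanSpace ℝ (Fin n)} (h4 : ∀ x, ‖x‖ ≤ ‖L x‖) {L' : Y ≃L[ℝ] EuclideanSpace ℝ (Fin n)}
    {c : Fin m → ℝ} {p : Fin m → EuclideanSpace ℝ (Fin n)} (h1 : ∀ i, 0 ≤ c i) (h2 : ∑ i, c i ≤ n)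
    (h5 : ∀ v, ∑ i, (c i * ⟪p i, v⟫) • p i = v) {F : Fin m → X → ℝ} {G : X → Y} {C : NNReal}
    (F1 : ∀ i, LipschitzWith 1 (F i)) (G1 : LipschitzWith C G) (G2 : ∀ x, L' (G x) = ∑ i, (c i * F i x) • p i)
    (cov : closedBall (0 : Y) 1 ⊆ G '' closedBall 0 1) :
    volume (L' '' closedBall 0 1) ≤ volume (L '' closedBall 0 1) ∧
      (volume (L '' closedBall 0 1) ≤ volume (L' '' closedBall 0 1) →
        ∀ x y : sphere (0 : X) 1, ‖L' (G x) - L' (G y)‖ ≤ ‖L x - L y‖) := by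
  haveI : FiniteDimensional ℝ X := L.symm.toLinearEquiv.finiteDimensional
  have ls : LipschitzWith 1 L.symm := LipschitzWith.of_dist_le_mul fun a b => by
    have := h4 (L.symm a - L.symm b)
    rw [map_sub, L.apply_symm_apply, L.apply_symm_apply] at this
    simpa [dist_eq_norm] using this
  have hd := hsb h1 h2 h5 (φ := fun i v => F i (L.symm v)) (fun i => by
    have := (F1 i).comp ls
    rw [one_mul] at this
    exact this)
    (H := fun v => L' (G (L.symm v))) fun v => G2 _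
  have hH : LipschitzWith _ fun v => L' (G (L.symm v)) :=
    (L' : Y →L[ℝ] EuclideanSpace ℝ (Fin n)).lipschitz.comp (G1.comp ls)
  have Kc : IsCompact (L '' closedBall (0 : X) 1) := (isCompact_closedBall _ _).image L.continuous
  have sub : L' '' closedBall 0 1 ⊆ (fun v => L' (G (L.symm v))) '' (L '' closedBall 0 1) := by
    rintro _ ⟨y, hy, rfl⟩
    obtain ⟨x, hx, rfl⟩ := cov hy
    exact ⟨L x, ⟨x, hx, rfl⟩, by simp⟩
  refine ⟨(measure_mono sub).trans (area_le hH Kc.measurableSet hd), fun h x y => ?_⟩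
  have ae := area_eq hH Kc.measurableSet hd Kc.measure_lt_top.ne (h.trans (measure_mono sub))
  have lp := lip_one hH (U := L '' ball (0 : X) 1) (L.toHomeomorph.isOpenMap _ isOpen_ball)
    ((convex_ball _ _).linear_image L.toLinearEquiv.toLinearMap) (by
      filter_upwards [ae] with v hv hu using hv (Set.image_mono ball_subset_closedBall hu))
  have mem : ∀ (z : sphere (0 : X) 1) (t : ℝ), t ∈ Set.Ioo (0 : ℝ) 1 → L (t • (z : X)) ∈ L '' ball (0 : X) 1 :=
    fun z t ht => ⟨_, by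
      rw [mem_ball_zero_iff, norm_smul, norm_eq_of_mem_sphere, mul_one, Real.norm_of_nonneg ht.1.le]
      exact ht.2, rfl⟩
  have cl : IsClosed {t : ℝ | ‖L' (G (t • (x : X))) - L' (G (t • (y : X)))‖ ≤ ‖L (t • (x : X)) - L (t • (y : X))‖} := by
    have := G1.continuous
    exact isClosed_le (by fun_prop) (by fun_prop)
  have := cl.closure_subset_iff.2 (fun t ht => by simpa only [L.symm_apply_apply, Set.mem_setOf_eq] using lp _ (mem y t ht) _ (mem x t ht) :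
    Set.Ioo (0 : ℝ) 1 ⊆ _) (show (1 : ℝ) ∈ closure (Set.Ioo (0 : ℝ) 1) by rw [closure_Ioo zero_ne_one]; simp)
  simpa using this

theorem lin9 (f : sphere (0 : X) 1 → sphere (0 : Y) 1) (hs : Function.Surjective f)
    (L : X ≃L[ℝ] EuclideanSpace ℝ (Fin n)) (L' : Y ≃L[ℝ] EuclideanSpace ℝ (Fin n))
    (h : ∀ x y : sphere (0 : X) 1, ⟪L' (f x), L' (f y)⟫ = ⟪L x, L y⟫) :
    ∃ T : X ≃ₗᵢ[ℝ] Y, ∀ x : sphere (0 : X) 1, T x = f x := by
  classical
  have nm : ∀ x : X, x ≠ 0 → ‖x‖⁻¹ • x ∈ sphere (0 : X) 1 := fun x hx => by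
    rw [mem_sphere_zero_iff_norm, norm_smul, norm_inv, norm_norm, inv_mul_cancel₀ (norm_ne_zero_iff.2 hx)]
  let Φ : X → Y := fun x => if hx : x = 0 then 0 else ‖x‖ • (f ⟨_, nm x hx⟩ : Y)
  have ip : ∀ x y, ⟪L' (Φ x), L' (Φ y)⟫ = ⟪L x, L y⟫ := fun x y => by
    by_cases hx : x = 0
    · simp [Φ, hx]
    by_cases hy : y = 0
    · simp [Φ, hy]
    have a := norm_ne_zero_iff.2 hx
    have b := norm_ne_zero_iff.2 hy
    simp only [Φ, dif_neg hx, dif_neg hy, map_smul, real_inner_smul_left, real_inner_smul_right, h]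
    field_simp
  have nr : ∀ x, ‖Φ x‖ = ‖x‖ := fun x => by
    by_cases hx : x = 0
    · simp [Φ, hx]
    · simp only [Φ, dif_neg hx, norm_smul, norm_norm, norm_eq_of_mem_sphere, mul_one]
  have sp : ∀ x : sphere (0 : X) 1, Φ x = f x := fun x => by
    simp only [Φ, dif_neg (ne_zero_of_mem_unit_sphere x), norm_eq_of_mem_sphere, inv_one, one_smul]
  let T : X →ₗ[ℝ] Y :=
    { toFun := Φ
      map_add' := fun x y => L'.injective (sub_eq_zero.1 (inner_self_eq_zero (𝕜 := ℝ).1 (by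
        simp only [map_add, inner_sub_left, inner_sub_right, inner_add_left, inner_add_right, ip]
        ring)))
      map_smul' := fun a x => L'.injective (sub_eq_zero.1 (inner_self_eq_zero (𝕜 := ℝ).1 (by
        simp only [map_smul, RingHom.id_apply, inner_sub_left, inner_sub_right, real_inner_smul_left,
          real_inner_smul_right, ip]
        ring))) }
  refine ⟨LinearIsometryEquiv.ofSurjective ⟨T, nr⟩ fun y => ?_, sp⟩
  by_cases hy : y = 0
  · exact ⟨0, by simp [hy]⟩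
  obtain ⟨x, hx⟩ := hs ⟨‖y‖⁻¹ • y, by
    rw [mem_sphere_zero_iff_norm, norm_smul, norm_inv, norm_norm, inv_mul_cancel₀ (norm_ne_zero_iff.2 hy)]⟩
  refine ⟨‖y‖ • (x : X), ?_⟩
  rw [map_smul]
  show ‖y‖ • Φ x = y
  rw [sp, hx, smul_smul, mul_inv_cancel₀ (norm_ne_zero_iff.2 hy), one_smul]

theorem main [FiniteDimensional ℝ X] [FiniteDimensional ℝ Y] (f : sphere (0 : X) 1 → sphere (0 : Y) 1)
    (hf : Isometry f) (hs : Function.Surjective f) : ∃ T : X ≃ₗᵢ[ℝ] Y, ∀ x : sphere (0 : X) 1, T x = f x := by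
  let e : sphere (0 : X) 1 ≃ᵢ sphere (0 : Y) 1 := ⟨Equiv.ofBijective f ⟨hf.injective, hs⟩, hf⟩
  have ef : ∀ x, e x = f x := fun _ => rfl
  have key : ∀ {a b : ℕ}, Module.finrank ℝ X = a → Module.finrank ℝ Y = b → ∃ (L : X ≃L[ℝ] EuclideanSpace ℝ (Fin a))
      (L' : Y ≃L[ℝ] EuclideanSpace ℝ (Fin b)), a = b ∧ ∀ x y : sphere (0 : X) 1,
        ‖L' (f x) - L' (f y)‖ = ‖L x - L y‖ := by
    intro a b ha hb
    obtain ⟨L, k, c, p, h1, h2, h3, h4, h5⟩ := john ha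
    obtain ⟨L', k', c', p', g1, g2, g3, g4, g5⟩ := john hb
    obtain ⟨F, G, C, F1, G1, G2, G3⟩ := ext9 f hf L' c' p' g3 g5
    obtain ⟨F', G', C', F1', G1', G2', G3'⟩ := ext9 e.symm e.symm.isometry L c p h3 h5
    have cov := cover G1.continuous G1'.continuous fun y hy => by
      have := G3' ⟨y, mem_sphere_zero_iff_norm.2 hy⟩
      simp only at this
      rw [this, G3, ← ef, e.apply_symm_apply]
      exact ⟨norm_eq_of_mem_sphere _, rfl⟩
    have cov' := cover G1'.continuous G1.continuous fun y hy => by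
      have := G3 ⟨y, mem_sphere_zero_iff_norm.2 hy⟩
      simp only at this
      rw [this, G3', ← ef, e.symm_apply_apply]
      exact ⟨norm_eq_of_mem_sphere _, rfl⟩
    obtain rfl : a = b := by
      have := dim_le G1 cov
      have := dim_le G1' cov'
      omega
    obtain ⟨s1, s2⟩ := side h4 g1 g2 g5 F1 G1 G2 cov
    obtain ⟨s3, s4⟩ := side g4 h1 h2 h5 F1' G1' G2' cov'
    refine ⟨L, L', rfl, fun x y => le_antisymm (by simpa only [G3] using s2 s3 x y) ?_⟩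
    have := s4 s1 (e x) (e y)
    rwa [G3', G3', e.symm_apply_apply, e.symm_apply_apply] at this
  obtain ⟨n, hn⟩ : ∃ n, Module.finrank ℝ X = n := ⟨_, rfl⟩
  obtain ⟨k, hk⟩ : ∃ n, Module.finrank ℝ Y = n := ⟨_, rfl⟩
  obtain ⟨L, L', rfl, h⟩ := key hn hk
  have nr : ∀ x : sphere (0 : X) 1, ‖L' (f x)‖ = ‖L x‖ := fun x => by
    have := h x (-x)
    rw [H1.odd f hf hs, coe_neg_sphere, coe_neg_sphere, map_neg, map_neg, sub_neg_eq_add, sub_neg_eq_add,
      ← two_smul ℝ, ← two_smul ℝ, norm_smul, norm_smul] at this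
    simpa using this
  refine lin9 f hs L L' fun x y => ?_
  rw [real_inner_eq_norm_mul_self_add_norm_mul_self_sub_norm_sub_mul_self_div_two,
    real_inner_eq_norm_mul_self_add_norm_mul_self_sub_norm_sub_mul_self_div_two, h, nr, nr]

theorem fin9 [FiniteDimensional ℝ X] (f : sphere (0 : X) 1 → sphere (0 : Y) 1)
    (hf : Isometry f) (hs : Function.Surjective f) : FiniteDimensional ℝ Y := by
  have c1 : IsCompact (sphere (0 : Y) 1) := by
    rw [isCompact_iff_compactSpace]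
    exact hs.compactSpace hf.continuous
  refine FiniteDimensional.of_isCompact_closedBall₀ ℝ one_pos
    (((isCompact_Icc (a := (0 : ℝ)) (b := 1)).smul_set c1).insert 0 |>.of_isClosed_subset isClosed_closedBall
      fun y hy => ?_)
  by_cases h : y = 0
  · exact Or.inl h
  have h0 := norm_ne_zero_iff.2 h
  refine Or.inr ⟨‖y‖, ⟨norm_nonneg _, mem_closedBall_zero_iff.1 hy⟩, ‖y‖⁻¹ • y, ?_, ?_⟩
  · rw [mem_sphere_zero_iff_norm, norm_smul, norm_inv, norm_norm, inv_mul_cancel₀ h0]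
  · simp only [smul_smul, mul_inv_cancel₀ h0, one_smul]

end Vale.Agent.P084.A9
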